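import Crest.Prelude.Def_FinProb

/-!
Fourier analysis on a finite product of biased coins, by explicit finite sums.
-/

set_option autoImplicit false
set_option linter.unusedSectionVars false
set_option linter.unusedVariables false

namespace Crest.Agent.R056V

open Finset Crest.FinProb

variable {E : Type*} [Fintype E] [DecidableEq E]

/-- Expectation under independent coins of bias `p`. -/
noncomputable def Ex (p : ℝ) (F : (E → Bool) → ℝ) : ℝ := ∑ x, bernoulliWeight p x * F x

theorem bw_nonneg {p : ℝ} (h0 : 0 ≤ p) (h1 : p ≤ 1) (x : E → Bool) : 0 ≤ bernoulliWeight p x := by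
  unfold bernoulliWeight
  refine Finset.prod_nonneg fun i _ => ?_
  split_ifs <;> linarith

theorem bw_pos {p : ℝ} (h0 : 0 < p) (h1 : p < 1) (x : E → Bool) : 0 < bernoulliWeight p x := by
  unfold bernoulliWeight
  refine Finset.prod_pos fun i _ => ?_
  split_ifs <;> linarith

/-- Expectation of a product of functions of single coordinates. -/
theorem Ex_prod (p : ℝ) (g : E → Bool → ℝ) :
    Ex p (fun x => ∏ e, g e (x e)) = ∏ e, (p * g e true + (1 - p) * g e false) := by
  unfold Ex bernoulliWeight
  have h1 : ∀ x : E → Bool, (∏ i, if x i = true then p else 1 - p) * ∏ e, g e (x e)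
      = ∏ e, ((if x e = true then p else 1 - p) * g e (x e)) := by
    intro x
    rw [Finset.prod_mul_distrib]
  simp_rw [h1]
  have h2 := Finset.prod_univ_sum (fun _ : E => (Finset.univ : Finset Bool))
    (fun e b => (if b = true then p else 1 - p) * g e b)
  rw [Fintype.piFinset_univ] at h2
  rw [← h2]
  refine Finset.prod_congr rfl fun e _ => ?_
  simp

theorem Ex_const (p c : ℝ) : Ex (E := E) p (fun _ => c) = c := by
  have h := Ex_prod (E := E) p (fun _ _ => 1)
  have h1 : Ex (E := E) p (fun _ => (1 : ℝ)) = 1 := by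
    simpa using h
  have : Ex (E := E) p (fun _ => c) = c * Ex (E := E) p (fun _ => (1 : ℝ)) := by
    unfold Ex
    rw [Finset.mul_sum]
    refine Finset.sum_congr rfl fun x _ => ?_
    ring
  rw [this, h1, mul_one]

theorem Ex_add (p : ℝ) (F G : (E → Bool) → ℝ) : Ex p (fun x => F x + G x) = Ex p F + Ex p G := by
  unfold Ex
  rw [← Finset.sum_add_distrib]
  refine Finset.sum_congr rfl fun x _ => ?_
  ring

theorem Ex_sub (p : ℝ) (F G : (E → Bool) → ℝ) : Ex p (fun x => F x - G x) = Ex p F - Ex p G := by
  unfold Ex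
  rw [← Finset.sum_sub_distrib]
  refine Finset.sum_congr rfl fun x _ => ?_
  ring

theorem Ex_mul_left (p c : ℝ) (F : (E → Bool) → ℝ) : Ex p (fun x => c * F x) = c * Ex p F := by
  unfold Ex
  rw [Finset.mul_sum]
  refine Finset.sum_congr rfl fun x _ => ?_
  ring

theorem Ex_mul_right (p c : ℝ) (F : (E → Bool) → ℝ) : Ex p (fun x => F x * c) = Ex p F * c := by
  unfold Ex
  rw [Finset.sum_mul]
  refine Finset.sum_congr rfl fun x _ => ?_
  ring

theorem Ex_sum {ι : Type*} (p : ℝ) (s : Finset ι) (F : ι → (E → Bool) → ℝ) :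
    Ex p (fun x => ∑ i ∈ s, F i x) = ∑ i ∈ s, Ex p (F i) := by
  unfold Ex
  simp_rw [Finset.mul_sum]
  rw [Finset.sum_comm]

theorem Ex_congr (p : ℝ) {F G : (E → Bool) → ℝ} (h : ∀ x, F x = G x) : Ex p F = Ex p G := by
  unfold Ex
  exact Finset.sum_congr rfl fun x _ => by rw [h x]

theorem Ex_mono {p : ℝ} (h0 : 0 ≤ p) (h1 : p ≤ 1) {F G : (E → Bool) → ℝ} (h : ∀ x, F x ≤ G x) :
    Ex p F ≤ Ex p G := by
  unfold Ex
  exact Finset.sum_le_sum fun x _ => mul_le_mul_of_nonneg_left (h x) (bw_nonneg h0 h1 x)

theorem Ex_nonneg {p : ℝ} (h0 : 0 ≤ p) (h1 : p ≤ 1) {F : (E → Bool) → ℝ} (h : ∀ x, 0 ≤ F x) :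
    0 ≤ Ex p F := by
  unfold Ex
  exact Finset.sum_nonneg fun x _ => mul_nonneg (bw_nonneg h0 h1 x) (h x)

theorem abs_Ex_le {p : ℝ} (h0 : 0 ≤ p) (h1 : p ≤ 1) (F : (E → Bool) → ℝ) :
    |Ex p F| ≤ Ex p (fun x => |F x|) := by
  unfold Ex
  refine (Finset.abs_sum_le_sum_abs _ _).trans (le_of_eq ?_)
  refine Finset.sum_congr rfl fun x _ => ?_
  rw [abs_mul, abs_of_nonneg (bw_nonneg h0 h1 x)]

/-- Cauchy-Schwarz. -/
theorem Ex_cs {p : ℝ} (h0 : 0 ≤ p) (h1 : p ≤ 1) (F G : (E → Bool) → ℝ) :
    (Ex p (fun x => F x * G x)) ^ 2 ≤ Ex p (fun x => F x ^ 2) * Ex p (fun x => G x ^ 2) := by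
  unfold Ex
  have h := Finset.sum_mul_sq_le_sq_mul_sq (Finset.univ : Finset (E → Bool))
    (fun x => Real.sqrt (bernoulliWeight p x) * F x) (fun x => Real.sqrt (bernoulliWeight p x) * G x)
  have e1 : ∀ x : E → Bool, Real.sqrt (bernoulliWeight p x) * F x * (Real.sqrt (bernoulliWeight p x) * G x)
      = bernoulliWeight p x * (F x * G x) := by
    intro x
    have := Real.mul_self_sqrt (bw_nonneg h0 h1 x)
    calc _ = (Real.sqrt (bernoulliWeight p x) * Real.sqrt (bernoulliWeight p x)) * (F x * G x) := by ring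
      _ = _ := by rw [this]
  have e2 : ∀ (H : (E → Bool) → ℝ) (x : E → Bool), (Real.sqrt (bernoulliWeight p x) * H x) ^ 2
      = bernoulliWeight p x * H x ^ 2 := by
    intro H x
    rw [mul_pow, Real.sq_sqrt (bw_nonneg h0 h1 x)]
  simp_rw [e1, e2] at h
  exact h

/-! ### Resampling a set of coordinates -/

/-- Take the coordinates in `D` from `z`, the others from `x`. -/
def merge (D : Finset E) (z x : E → Bool) : E → Bool := fun e => if e ∈ D then z e else x e

omit [Fintype E] in
theorem merge_mem {D : Finset E} {z x : E → Bool} {e : E} (h : e ∈ D) : merge D z x e = z e := by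
  simp [merge, h]

omit [Fintype E] in
theorem merge_not_mem {D : Finset E} {z x : E → Bool} {e : E} (h : e ∉ D) :
    merge D z x e = x e := by
  simp [merge, h]

theorem bw_merge (p : ℝ) (D : Finset E) (z x : E → Bool) :
    bernoulliWeight p (merge D z x) * bernoulliWeight p (merge D x z)
      = bernoulliWeight p x * bernoulliWeight p z := by
  unfold bernoulliWeight
  rw [← Finset.prod_mul_distrib, ← Finset.prod_mul_distrib]
  refine Finset.prod_congr rfl fun e _ => ?_
  by_cases h : e ∈ D
  · simp only [merge, h, if_true]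
    ring
  · simp only [merge, h, if_false]

/-- Swapping the coordinates in `D` between two independent copies preserves the joint law. -/
theorem Ex_Ex_merge (p : ℝ) (D : Finset E) (G : (E → Bool) → (E → Bool) → ℝ) :
    Ex p (fun x => Ex p (fun z => G (merge D z x) (merge D x z)))
      = Ex p (fun x => Ex p (fun z => G x z)) := by
  unfold Ex
  simp_rw [Finset.mul_sum]
  rw [← Finset.sum_product', ← Finset.sum_product']
  refine Finset.sum_nbij' (fun q => (merge D q.2 q.1, merge D q.1 q.2))
    (fun q => (merge D q.2 q.1, merge D q.1 q.2)) ?_ ?_ ?_ ?_ ?_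
  · intro q _; simp
  · intro q _; simp
  · rintro ⟨x, z⟩ _
    ext e <;> by_cases h : e ∈ D <;> simp [merge, h]
  · rintro ⟨x, z⟩ _
    ext e <;> by_cases h : e ∈ D <;> simp [merge, h]
  · rintro ⟨x, z⟩ _
    simp only
    rw [← mul_assoc, ← mul_assoc, bw_merge]

/-- Average over the coordinates in `D`. -/
noncomputable def av (p : ℝ) (D : Finset E) (F : (E → Bool) → ℝ) (x : E → Bool) : ℝ :=
  Ex p (fun z => F (merge D z x))

theorem Ex_av (p : ℝ) (D : Finset E) (F : (E → Bool) → ℝ) : Ex p (av p D F) = Ex p F := by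
  have h := Ex_Ex_merge (E := E) p D (fun a _ => F a)
  have h2 : Ex (E := E) p (fun x => Ex p (fun _ : E → Bool => F x)) = Ex p F := by
    refine Ex_congr p fun x => ?_
    exact Ex_const p (F x)
  rw [h2] at h
  exact h

omit [Fintype E] in
theorem merge_merge_same (D : Finset E) (z y x : E → Bool) :
    merge D z (merge D y x) = merge D z x := by
  funext e
  by_cases h : e ∈ D <;> simp [merge, h]

omit [Fintype E] in
theorem merge_self (D : Finset E) (x : E → Bool) : merge D x x = x := by
  funext e
  by_cases h : e ∈ D <;> simp [merge, h]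

/-- `F` does not depend on the coordinates in `D`. -/
def Indep (D : Finset E) (F : (E → Bool) → ℝ) : Prop := ∀ z x, F (merge D z x) = F x

omit [Fintype E] in
theorem Indep.mono {D D' : Finset E} {F : (E → Bool) → ℝ} (h : Indep D' F) (hD : D ⊆ D') :
    Indep D F := by
  intro z x
  have h1 := h (merge D z x) x
  have h2 := h x (merge D z x)
  have : merge D' x (merge D z x) = x := by
    funext e
    by_cases hD' : e ∈ D'
    · simp [merge, hD']
    · have : e ∉ D := fun hh => hD' (hD hh)
      simp [merge, hD', this]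
  rw [this] at h2
  exact h2.symm

omit [Fintype E] in
theorem Indep.congr {D : Finset E} {F : (E → Bool) → ℝ} (h : Indep D F) {x y : E → Bool}
    (hxy : ∀ e, e ∉ D → x e = y e) : F x = F y := by
  have h1 := h y x
  have : merge D y x = y := by
    funext e
    by_cases hD' : e ∈ D
    · simp [merge, hD']
    · simp [merge, hD', hxy e hD']
  rw [this] at h1
  exact h1.symm

theorem indep_av (p : ℝ) (D : Finset E) (F : (E → Bool) → ℝ) : Indep D (av p D F) := by
  intro z x
  unfold av
  simp_rw [merge_merge_same]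

omit [Fintype E] in
theorem Indep.mul {D : Finset E} {F G : (E → Bool) → ℝ} (hF : Indep D F) (hG : Indep D G) :
    Indep D (fun x => F x * G x) := by
  intro z x
  simp only [hF z x, hG z x]

omit [Fintype E] in
theorem Indep.comp {D : Finset E} {F : (E → Bool) → ℝ} (hF : Indep D F) (φ : ℝ → ℝ) :
    Indep D (fun x => φ (F x)) := by
  intro z x
  simp only [hF z x]

theorem av_mul_indep (p : ℝ) {D : Finset E} {G : (E → Bool) → ℝ} (hG : Indep D G)
    (F : (E → Bool) → ℝ) (x : E → Bool) :
    av p D (fun x => G x * F x) x = G x * av p D F x := by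
  unfold av
  rw [← Ex_mul_left]
  refine Ex_congr p fun z => ?_
  simp only [hG z x]

theorem av_of_indep (p : ℝ) {D : Finset E} {G : (E → Bool) → ℝ} (hG : Indep D G)
    (x : E → Bool) : av p D G x = G x := by
  unfold av
  rw [Ex_congr p (fun z => hG z x), Ex_const]

omit [Fintype E] in
theorem merge_merge_union (D1 D2 : Finset E) (y z x : E → Bool) :
    merge D2 y (merge D1 z x) = merge (D1 ∪ D2) (merge D2 y z) x := by
  funext e
  by_cases h1 : e ∈ D1 <;> by_cases h2 : e ∈ D2 <;> simp [merge, h1, h2]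

theorem av_av (p : ℝ) (D1 D2 : Finset E) (F : (E → Bool) → ℝ) (x : E → Bool) :
    av p D1 (av p D2 F) x = av p (D1 ∪ D2) F x := by
  unfold av
  simp_rw [merge_merge_union]
  have h := Ex_Ex_merge (E := E) p D2 (fun a _ => F (merge (D1 ∪ D2) a x))
  rw [h]
  refine Ex_congr p fun z => ?_
  rw [Ex_const]

theorem av_mono {p : ℝ} (h0 : 0 ≤ p) (h1 : p ≤ 1) (D : Finset E) {F G : (E → Bool) → ℝ}
    (h : ∀ x, F x ≤ G x) (x : E → Bool) : av p D F x ≤ av p D G x :=
  Ex_mono h0 h1 fun z => h _

theorem av_congr (p : ℝ) (D : Finset E) {F G : (E → Bool) → ℝ}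
    (h : ∀ x, F x = G x) (x : E → Bool) : av p D F x = av p D G x :=
  Ex_congr p fun z => h _

/-! ### Characters -/

/-- The normalised coin. -/
noncomputable def phi (p : ℝ) (b : Bool) : ℝ := ((if b then 1 else 0) - p) / Real.sqrt (p * (1 - p))

theorem phi_mean {p : ℝ} : p * phi p true + (1 - p) * phi p false = 0 := by
  unfold phi
  simp only [if_true, Bool.false_eq_true, if_false]
  ring

theorem phi_sq_mean {p : ℝ} (h0 : 0 < p) (h1 : p < 1) :
    p * phi p true ^ 2 + (1 - p) * phi p false ^ 2 = 1 := by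
  have hq : 0 < p * (1 - p) := mul_pos h0 (by linarith)
  have hp : p ≠ 0 := h0.ne'
  have hp' : 1 - p ≠ 0 := by linarith
  unfold phi
  simp only [if_true, Bool.false_eq_true, if_false, div_pow, Real.sq_sqrt hq.le]
  field_simp
  ring

/-- The character of a set of coordinates. -/
noncomputable def chi (p : ℝ) (S : Finset E) (x : E → Bool) : ℝ := ∏ e ∈ S, phi p (x e)

/-- The Fourier coefficient. -/
noncomputable def fc (p : ℝ) (F : (E → Bool) → ℝ) (S : Finset E) : ℝ :=
  Ex p (fun x => F x * chi p S x)

theorem chi_eq_prod (p : ℝ) (S : Finset E) (x : E → Bool) :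
    chi p S x = ∏ e, (if e ∈ S then phi p (x e) else 1) := by
  unfold chi
  rw [Finset.prod_ite_mem]
  simp

theorem Ex_chi_mul_chi {p : ℝ} (h0 : 0 < p) (h1 : p < 1) (S T : Finset E) :
    Ex p (fun x => chi p S x * chi p T x) = if S = T then 1 else 0 := by
  have h : ∀ x : E → Bool, chi p S x * chi p T x
      = ∏ e, ((if e ∈ S then phi p (x e) else 1) * (if e ∈ T then phi p (x e) else 1)) := by
    intro x
    rw [chi_eq_prod, chi_eq_prod, Finset.prod_mul_distrib]
  rw [Ex_congr p h]
  have := Ex_prod (E := E) p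
    (fun e b => (if e ∈ S then phi p b else 1) * (if e ∈ T then phi p b else 1))
  rw [this]
  split_ifs with hST
  · subst hST
    refine Finset.prod_eq_one fun e _ => ?_
    by_cases he : e ∈ S
    · simp only [he, if_true]
      have := phi_sq_mean h0 h1
      nlinarith [this]
    · simp [he]
  · have : ∃ e, ¬ (e ∈ S ↔ e ∈ T) := by
      by_contra hcon
      push Not at hcon
      exact hST (Finset.ext hcon)
    obtain ⟨e, he⟩ := this
    refine Finset.prod_eq_zero (Finset.mem_univ e) ?_
    have hm := phi_mean (p := p)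
    by_cases hS : e ∈ S <;> by_cases hT : e ∈ T
    · exact absurd (by simp [hS, hT]) he
    · simp only [hS, hT, if_true, if_false]; linarith
    · simp only [hS, hT, if_true, if_false]; linarith
    · exact absurd (by simp [hS, hT]) he

/-- Completeness kernel. -/
theorem sum_chi_mul_chi {p : ℝ} (h0 : 0 < p) (h1 : p < 1) (x y : E → Bool) :
    ∑ S : Finset E, chi p S x * chi p S y = if x = y then (bernoulliWeight p x)⁻¹ else 0 := by
  have hq : 0 < p * (1 - p) := mul_pos h0 (by linarith)
  have h : ∑ S : Finset E, chi p S x * chi p S y = ∏ e, (1 + phi p (x e) * phi p (y e)) := by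
    rw [Finset.prod_one_add]
    rw [Finset.powerset_univ]
    refine Finset.sum_congr rfl fun S _ => ?_
    unfold chi
    rw [Finset.prod_mul_distrib]
  rw [h]
  split_ifs with hxy
  · subst hxy
    unfold bernoulliWeight
    rw [← Finset.prod_inv_distrib]
    refine Finset.prod_congr rfl fun e _ => ?_
    unfold phi
    have hp : p ≠ 0 := h0.ne'
    have hp' : 1 - p ≠ 0 := by linarith
    rw [div_mul_div_comm, Real.mul_self_sqrt hq.le]
    cases x e
    · simp only [Bool.false_eq_true, if_false]
      field_simp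
      ring
    · simp only [if_true]
      field_simp
      ring
  · have : ∃ e, x e ≠ y e := by
      by_contra hcon
      push Not at hcon
      exact hxy (funext hcon)
    obtain ⟨e, he⟩ := this
    refine Finset.prod_eq_zero (Finset.mem_univ e) ?_
    unfold phi
    have hp : p ≠ 0 := h0.ne'
    have hp' : 1 - p ≠ 0 := by linarith
    rw [div_mul_div_comm, Real.mul_self_sqrt hq.le]
    cases hx : x e <;> cases hy : y e
    · exact absurd (hx.trans hy.symm) he
    · simp only [Bool.false_eq_true, if_false, if_true]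
      field_simp
      ring
    · simp only [Bool.false_eq_true, if_false, if_true]
      field_simp
      ring
    · exact absurd (hx.trans hy.symm) he

/-- Parseval. -/
theorem parseval {p : ℝ} (h0 : 0 < p) (h1 : p < 1) (F : (E → Bool) → ℝ) :
    ∑ S : Finset E, fc p F S ^ 2 = Ex p (fun x => F x ^ 2) := by
  have h : ∀ S : Finset E, fc p F S ^ 2
      = ∑ x, ∑ y, (bernoulliWeight p x * F x) * (bernoulliWeight p y * F y)
          * (chi p S x * chi p S y) := by
    intro S
    unfold fc Ex
    rw [sq, Finset.sum_mul_sum]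
    refine Finset.sum_congr rfl fun x _ => Finset.sum_congr rfl fun y _ => ?_
    ring
  simp_rw [h]
  rw [Finset.sum_comm]
  unfold Ex
  refine Finset.sum_congr rfl fun x _ => ?_
  rw [Finset.sum_comm]
  simp_rw [← Finset.mul_sum, sum_chi_mul_chi h0 h1]
  rw [Finset.sum_eq_single x]
  · simp only [if_true]
    have := (bw_pos h0 h1 x).ne'
    field_simp
  · intro y _ hy
    rw [if_neg (Ne.symm hy), mul_zero]
  · intro hx
    exact absurd (Finset.mem_univ x) hx

/-- Bessel's inequality for a set of frequencies. -/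
theorem bessel {p : ℝ} (h0 : 0 < p) (h1 : p < 1) (F : (E → Bool) → ℝ)
    (s : Finset (Finset E)) : ∑ S ∈ s, fc p F S ^ 2 ≤ Ex p (fun x => F x ^ 2) := by
  rw [← parseval h0 h1 F]
  exact Finset.sum_le_univ_sum_of_nonneg fun S => sq_nonneg _

theorem chi_merge_of_subset (p : ℝ) {T D : Finset E} (h : T ⊆ D) (z x : E → Bool) :
    chi p T (merge D z x) = chi p T z := by
  unfold chi
  refine Finset.prod_congr rfl fun e he => ?_
  rw [merge_mem (h he)]

theorem indep_chi (p : ℝ) {S D : Finset E} (h : Disjoint S D) : Indep D (chi p S) := by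
  intro z x
  unfold chi
  refine Finset.prod_congr rfl fun e he => ?_
  rw [merge_not_mem (Finset.disjoint_left.mp h he)]

theorem chi_union (p : ℝ) {S T : Finset E} (h : Disjoint S T) (x : E → Bool) :
    chi p (S ∪ T) x = chi p S x * chi p T x := by
  unfold chi
  exact Finset.prod_union h

/-- The mean of a nontrivial character vanishes. -/
theorem Ex_chi {p : ℝ} (h0 : 0 < p) (h1 : p < 1) {S : Finset E} (h : S.Nonempty) :
    Ex p (chi p S) = 0 := by
  have := Ex_chi_mul_chi (E := E) h0 h1 S ∅
  rw [if_neg h.ne_empty] at this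
  rw [← this]
  refine Ex_congr p fun x => ?_
  simp [chi]

theorem av_chi_of_not_disjoint {p : ℝ} (h0 : 0 < p) (h1 : p < 1) {S D : Finset E}
    (h : (S ∩ D).Nonempty) (x : E → Bool) : av p D (chi p S) x = 0 := by
  have hS : S = (S \ D) ∪ (S ∩ D) := (Finset.sdiff_union_inter S D).symm
  have hdis : Disjoint (S \ D) (S ∩ D) := Finset.disjoint_sdiff_inter S D
  have e1 : ∀ y, chi p S y = chi p (S \ D) y * chi p (S ∩ D) y := by
    intro y
    conv_lhs => rw [hS]
    exact chi_union p hdis y
  rw [av_congr p D e1]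
  rw [av_mul_indep p (indep_chi p Finset.sdiff_disjoint)]
  have : av p D (chi p (S ∩ D)) x = 0 := by
    unfold av
    rw [← Ex_chi h0 h1 h]
    refine Ex_congr p fun z => ?_
    exact chi_merge_of_subset p Finset.inter_subset_right z x
  rw [this, mul_zero]

/-- Self-adjointness of averaging. -/
theorem Ex_mul_av (p : ℝ) (D : Finset E) (F G : (E → Bool) → ℝ) :
    Ex p (fun x => F x * av p D G x) = Ex p (fun x => av p D F x * av p D G x) := by
  have h1 : Ex p (fun x => F x * av p D G x) = Ex p (av p D (fun x => F x * av p D G x)) :=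
    (Ex_av p D _).symm
  rw [h1]
  refine Ex_congr p fun x => ?_
  have h2 : av p D (fun x => F x * av p D G x) x = av p D (fun x => av p D G x * F x) x :=
    av_congr p D (fun y => mul_comm _ _) x
  rw [h2, av_mul_indep p (indep_av p D G), mul_comm]

theorem Ex_mul_av_comm (p : ℝ) (D : Finset E) (F G : (E → Bool) → ℝ) :
    Ex p (fun x => F x * av p D G x) = Ex p (fun x => av p D F x * G x) := by
  rw [Ex_mul_av p D F G]
  have : Ex p (fun x => av p D F x * G x) = Ex p (fun x => G x * av p D F x) :=
    Ex_congr p fun x => mul_comm _ _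
  rw [this, Ex_mul_av p D G F]
  exact Ex_congr p fun x => mul_comm _ _

/-- Fourier coefficients of an average. -/
theorem fc_av {p : ℝ} (h0 : 0 < p) (h1 : p < 1) (D : Finset E) (F : (E → Bool) → ℝ)
    (S : Finset E) : fc p (av p D F) S = if Disjoint S D then fc p F S else 0 := by
  unfold fc
  rw [← Ex_mul_av_comm]
  split_ifs with h
  · refine Ex_congr p fun x => ?_
    rw [av_of_indep p (indep_chi p h)]
  · have hne : (S ∩ D).Nonempty := by
      rw [Finset.not_disjoint_iff_nonempty_inter] at h
      exact h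
    rw [Ex_congr p (G := fun _ => (0 : ℝ)) (fun x => by rw [av_chi_of_not_disjoint h0 h1 hne x, mul_zero])]
    exact Ex_const p 0

end Crest.Agent.R056V
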